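import Vale.Agent.P297Z.Final

open Vale.Agent.P299.S Vale.Agent.P297 Vale.Agent.P297Z

/-- Bloch's conjecture for the smooth projective complex surfaces with `p_g = q = 0`: any two closed
points are rationally equivalent. -/
theorem Vale.Agent.Results.P297.BlochAll.result :
    ∀ (X : Var) (κ : Div X.toPVar), dim X.toPVar = 2 → IsCanonical κ → ¬ HasSec κ →
      IrregularityZero X.toPVar → ∀ x y : ClosedPt X.X, RatEquiv X.str x y :=
  blochAll
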