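import Vale.Agent.P297Y.Final

open Vale.Agent.P299.S Vale.Agent.P297 Vale.Agent.P009.AV Vale.Agent.P297Y

/-- Bloch's conjecture: for a smooth projective complex surface with `p_g = 0` the Albanese
homomorphism is an isomorphism from the zero-cycles of degree zero modulo rational equivalence onto
the Albanese variety. -/
theorem Vale.Agent.Results.P297.BlochFull.result :
    ∀ (X : Var) (κ : Div X.toPVar), dim X.toPVar = 2 → IsCanonical κ → ¬ HasSec κ →
      ∀ x₀ : ClosedPt X.X,
        (∃ (ι : Type) (_ : Fintype ι) (A : AbVar ℂ ι) (a : ClosedPt X.X → A.G),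
          IsAlb X.toPVar x₀ A a) ∧
        ∀ (ι : Type) [Fintype ι] (A : AbVar ℂ ι) (a : ClosedPt X.X → A.G),
          IsAlb X.toPVar x₀ A a → AlbIso X.toPVar A a :=
  blochFull
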