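import Vale.Agent.P297Y.Final

open Vale.Agent.P299.S Vale.Agent.P297 Vale.Agent.P297Y.Tor

/-- Bloch's conjecture: for a smooth projective complex surface with `p_g = 0` the Albanese
homomorphism is an isomorphism from the zero-cycles of degree zero modulo rational equivalence onto
the Albanese torus. -/
theorem Vale.Agent.Results.P297.BlochTor.result :
    ∀ (X : Var) (κ : Div X.toPVar), dim X.toPVar = 2 → IsCanonical κ → ¬ HasSec κ →
      ∀ x₀ : ClosedPt X.X,
        (∃ (T : Torus) (a : ClosedPt X.X → T.G), IsAlb X.toPVar x₀ T a) ∧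
        ∀ (T : Torus) (a : ClosedPt X.X → T.G), IsAlb X.toPVar x₀ T a → AlbIso X.toPVar T a :=
  Vale.Agent.P297Y.blochTor
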